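import Vale.Agent.P249.H557.Prob

/-!
# P249: finite subsets of `L_p` of a probability space with comparable `L_p` and `L_r` distances
-/

set_option linter.all false

open MeasureTheory
open scoped BigOperators ENNReal

namespace Vale.Agent.P249.H557

open Vale.Agent.P249

/-- The finite set `X` has a map into `ℓ_p^d` of distortion at most `D`. -/
def Embeds {E : Type*} [NormedAddCommGroup E] (X : Finset E) (p : ℝ≥0∞) [Fact (1 ≤ p)] (d : ℕ)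
    (D : ℝ) : Prop :=
  ∃ f : E → PiLp p (fun _ : Fin d => ℝ), ∃ s : ℝ, 0 < s ∧ ∀ x ∈ X, ∀ y ∈ X,
    s * ‖x - y‖ ≤ ‖f x - f y‖ ∧ ‖f x - f y‖ ≤ D * s * ‖x - y‖

theorem integral_rpow_eq {Ω : Type*} [MeasurableSpace Ω] {μ : Measure Ω} {r : ℝ≥0∞}
    (hr0 : r ≠ 0) (hr : r ≠ ∞) {f : Ω → ℝ} (hf : MemLp f r μ) :
    Integrable (fun ω => |f ω| ^ r.toReal) μ ∧
      ∫ ω, |f ω| ^ r.toReal ∂μ = (eLpNorm f r μ).toReal ^ r.toReal := by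
  have hr0' : 0 < r.toReal := ENNReal.toReal_pos hr0 hr
  constructor
  · have := hf.integrable_norm_rpow hr0 hr
    simpa only [Real.norm_eq_abs] using this
  · rw [hf.eLpNorm_eq_integral_rpow_norm hr0 hr]
    simp only [Real.norm_eq_abs]
    have h0 : 0 ≤ ∫ ω, |f ω| ^ r.toReal ∂μ :=
      integral_nonneg fun ω => Real.rpow_nonneg (abs_nonneg _) _
    rw [ENNReal.toReal_ofReal (Real.rpow_nonneg h0 _), ← Real.rpow_mul h0,
      inv_mul_cancel₀ hr0'.ne', Real.rpow_one]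

theorem pair_p {p : ℝ≥0∞} [Fact (1 ≤ p)] (hp : p ≠ ∞) {Ω : Type*} [MeasurableSpace Ω]
    {μ : Measure Ω} (x y : Lp ℝ p μ) :
    Integrable (fun ω => |x ω - y ω| ^ p.toReal) μ ∧
      ∫ ω, |x ω - y ω| ^ p.toReal ∂μ = ‖x - y‖ ^ p.toReal := by
  have hp0 : p ≠ 0 := (lt_of_lt_of_le one_pos (Fact.out (p := 1 ≤ p))).ne'
  have hsub : (fun ω => x ω - y ω) =ᵐ[μ] ⇑(x - y) := (Lp.coeFn_sub x y).symm
  have hmem : MemLp (fun ω => x ω - y ω) p μ := (memLp_congr_ae hsub).2 (Lp.memLp (x - y))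
  obtain ⟨h1, h2⟩ := integral_rpow_eq hp0 hp hmem
  refine ⟨h1, ?_⟩
  rw [h2, eLpNorm_congr_ae hsub, Lp.norm_def]

theorem pair_r {p r : ℝ≥0∞} [Fact (1 ≤ p)] (hr0 : r ≠ 0) (hr : r ≠ ∞) {Ω : Type*}
    [MeasurableSpace Ω] {μ : Measure Ω} {A : ℝ} (hA : 1 ≤ A) (x y : Lp ℝ p μ)
    (h : eLpNorm (⇑(x - y)) r μ ≤ ENNReal.ofReal A * eLpNorm (⇑(x - y)) p μ) :
    Integrable (fun ω => |x ω - y ω| ^ r.toReal) μ ∧
      ∫ ω, |x ω - y ω| ^ r.toReal ∂μ ≤ (A * ‖x - y‖) ^ r.toReal := by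
  have hsub : (fun ω => x ω - y ω) =ᵐ[μ] ⇑(x - y) := (Lp.coeFn_sub x y).symm
  have htop : ENNReal.ofReal A * eLpNorm (⇑(x - y)) p μ < ∞ :=
    ENNReal.mul_lt_top ENNReal.ofReal_lt_top (Lp.memLp _).2
  have hm : MemLp (⇑(x - y)) r μ := ⟨(Lp.memLp _).1, lt_of_le_of_lt h htop⟩
  have hm2 : MemLp (fun ω => x ω - y ω) r μ := (memLp_congr_ae hsub).2 hm
  obtain ⟨h2, h3⟩ := integral_rpow_eq hr0 hr hm2
  refine ⟨h2, ?_⟩
  rw [h3]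
  apply Real.rpow_le_rpow ENNReal.toReal_nonneg _ ENNReal.toReal_nonneg
  rw [eLpNorm_congr_ae hsub]
  have h4 := ENNReal.toReal_mono htop.ne h
  rw [ENNReal.toReal_mul, ENNReal.toReal_ofReal (by linarith)] at h4
  rwa [Lp.norm_def]

theorem embed_flat_aux (p : ℝ≥0∞) [Fact (1 ≤ p)] (r : ℝ≥0∞) (hr : r ≠ ∞) (hpr : p < r) :
    ∃ C : ℝ, 1 ≤ C ∧ ∀ n : ℕ, 2 ≤ n → ∀ A : ℝ, 1 ≤ A → ∀ ε : ℝ, 0 < ε → ε ≤ 1 →
      ∀ (Ω : Type) [MeasurableSpace Ω] (μ : Measure Ω) [IsProbabilityMeasure μ]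
        (X : Finset (Lp ℝ p μ)), X.card ≤ n →
        (∀ x ∈ X, ∀ y ∈ X, eLpNorm (⇑(x - y)) r μ ≤ ENNReal.ofReal A * eLpNorm (⇑(x - y)) p μ) →
        ∃ d : ℕ, (d : ℝ) ≤ C * (A * (1 + Real.log n) / ε) ^ C ∧ Embeds X p d (1 + ε) := by
  classical
  have hp : p ≠ ∞ := ne_top_of_lt hpr
  have hr0 : r ≠ 0 := (lt_of_le_of_lt zero_le' hpr).ne'
  have hP0 := toReal_pos_of_fact (p := p) hp
  have hPR : p.toReal < r.toReal := (ENNReal.toReal_lt_toReal hp hr).2 hpr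
  obtain ⟨C, hC1, hC⟩ := prob_embed p hp r.toReal hPR
  refine ⟨C, hC1, fun n hn A hA ε hε hε1 Ω _ μ _ X hX hflat => ?_⟩
  have hnr : (1 : ℝ) ≤ n := by exact_mod_cast (by omega : 1 ≤ n)
  have hlog := Real.log_nonneg hnr
  rcases Finset.eq_empty_or_nonempty X with h0 | h0
  · subst h0
    refine ⟨0, by rw [Nat.cast_zero]; positivity, fun _ => 0, 1, one_pos, ?_⟩
    intro x hx
    simp at hx
  have : Nonempty X := ⟨⟨h0.choose, h0.choose_spec⟩⟩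
  have hFp : ∀ x y : X, Integrable (fun ω => |x.1 ω - y.1 ω| ^ p.toReal) μ ∧
      (1 - ε / 16) * ‖x.1 - y.1‖ ^ p.toReal ≤ ∫ ω, |x.1 ω - y.1 ω| ^ p.toReal ∂μ ∧
      ∫ ω, |x.1 ω - y.1 ω| ^ p.toReal ∂μ ≤ (1 + ε / 16) * ‖x.1 - y.1‖ ^ p.toReal := by
    intro x y
    obtain ⟨h1, h2⟩ := pair_p hp x.1 y.1
    have h3 : 0 ≤ ‖x.1 - y.1‖ ^ p.toReal := Real.rpow_nonneg (norm_nonneg _) _
    refine ⟨h1, ?_, ?_⟩ <;> rw [h2] <;> nlinarith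
  have hFr : ∀ x y : X, Integrable (fun ω => |x.1 ω - y.1 ω| ^ r.toReal) μ ∧
      ∫ ω, |x.1 ω - y.1 ω| ^ r.toReal ∂μ ≤ (A * ‖x.1 - y.1‖) ^ r.toReal := fun x y =>
    pair_r hr0 hr hA x.1 y.1 (hflat x x.2 y y.2)
  obtain ⟨d, W, s, hs, hd, hW⟩ := hC X μ (fun x : X => ⇑x.1)
    (fun x => (Lp.stronglyMeasurable x.1).measurable)
    (fun x y => ‖x.1 - y.1‖) (fun x => by simp)
    (fun x y hxy => norm_pos_iff.2 (sub_ne_zero.2 fun h => hxy (Subtype.ext h))) A hA ε hε hε1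
    hFp hFr
  refine ⟨d, ?_, fun x => if h : x ∈ X then W ⟨x, h⟩ else 0, s, hs, fun x hx y hy => ?_⟩
  · refine hd.trans ?_
    have hcard : Fintype.card X = X.card := Fintype.card_coe X
    rw [hcard]
    have h1 : (1 : ℝ) ≤ X.card := by exact_mod_cast h0.card_pos
    have h2 : Real.log X.card ≤ Real.log n :=
      Real.log_le_log (by linarith) (by exact_mod_cast hX)
    have h3 := Real.log_nonneg h1
    apply mul_le_mul_of_nonneg_left _ (by linarith)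
    apply Real.rpow_le_rpow (by positivity) _ (by linarith)
    gcongr
  · simp only [dif_pos hx, dif_pos hy]
    exact hW ⟨x, hx⟩ ⟨y, hy⟩

/-- Theorem A. -/
theorem embed_flat (p : ℝ≥0∞) [Fact (1 ≤ p)] (r : ℝ≥0∞) (hpr : p < r) :
    ∃ C : ℝ, 1 ≤ C ∧ ∀ n : ℕ, 2 ≤ n → ∀ A : ℝ, 1 ≤ A → ∀ ε : ℝ, 0 < ε → ε ≤ 1 →
      ∀ (Ω : Type) [MeasurableSpace Ω] (μ : Measure Ω) [IsProbabilityMeasure μ]
        (X : Finset (Lp ℝ p μ)), X.card ≤ n →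
        (∀ x ∈ X, ∀ y ∈ X, eLpNorm (⇑(x - y)) r μ ≤ ENNReal.ofReal A * eLpNorm (⇑(x - y)) p μ) →
        ∃ d : ℕ, (d : ℝ) ≤ C * (A * (1 + Real.log n) / ε) ^ C ∧ Embeds X p d (1 + ε) := by
  have hp : p ≠ ∞ := ne_top_of_lt hpr
  rcases eq_or_ne r ∞ with h | h
  · subst h
    obtain ⟨C, hC1, hC⟩ := embed_flat_aux p (p + 1)
      (ENNReal.add_ne_top.2 ⟨hp, ENNReal.one_ne_top⟩) (ENNReal.lt_add_right hp one_ne_zero)
    refine ⟨C, hC1, fun n hn A hA ε hε hε1 Ω _ μ _ X hX hflat => ?_⟩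
    refine hC n hn A hA ε hε hε1 Ω μ X hX fun x hx y hy => ?_
    refine le_trans ?_ (hflat x hx y hy)
    exact eLpNorm_le_eLpNorm_of_exponent_le le_top (Lp.memLp (x - y)).1
  · exact embed_flat_aux p r h hpr

end Vale.Agent.P249.H557
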