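import Vale.Agent.P249.H557.Flat

/-!
# P249: flat families embed in `ℓ_p^d` with polylogarithmic `d`
-/

set_option linter.all false

open scoped BigOperators ENNReal

namespace Vale.Agent.P249.H557

open Vale.Agent.P249

/-- Kernels for all exponents, one form. -/
theorem kern (r : ℝ) (hr : 1 < r) : ∃ C : ℝ, 1 ≤ C ∧
    ∀ {V : Type} [Fintype V] [Nonempty V] {N : ℕ} (f : V → Fin N → ℝ),
      HasKernels r (lpd r f) (C * (1 + Real.log (Fintype.card V)) ^ (1 + r / 2)) := by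
  rcases le_or_gt r 2 with h2 | h2
  · obtain ⟨C, hC, h⟩ := kernels_le_two r hr.le h2
    refine ⟨max C 1, le_max_right _ _, fun {V} _ _ {N} f => ?_⟩
    have hcard : (1 : ℝ) ≤ Fintype.card V := by exact_mod_cast Fintype.card_pos
    have hl0 : 0 ≤ Real.log (Fintype.card V) := Real.log_nonneg hcard
    intro J
    obtain ⟨K, hK1, hK2, hK3⟩ := h f J
    refine ⟨K, hK1, hK2, fun x => (hK3 x).trans ?_⟩
    have h1 : Real.log (Fintype.card V) ≤ (1 + Real.log (Fintype.card V)) ^ (1 + r / 2) := by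
      calc Real.log (Fintype.card V) ≤ 1 + Real.log (Fintype.card V) := by linarith
        _ = (1 + Real.log (Fintype.card V)) ^ (1 : ℝ) := (Real.rpow_one _).symm
        _ ≤ _ := Real.rpow_le_rpow_of_exponent_le (by linarith) (by linarith)
    exact mul_le_mul (le_max_left _ _) h1 hl0 (by positivity)
  · obtain ⟨C, hC, h⟩ := kernels_gt_two r h2
    refine ⟨max C 1, le_max_right _ _, fun {V} _ _ {N} f => ?_⟩
    have hcard : (1 : ℝ) ≤ Fintype.card V := by exact_mod_cast Fintype.card_pos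
    have hl0 : 0 ≤ Real.log (Fintype.card V) := Real.log_nonneg hcard
    intro J
    obtain ⟨K, hK1, hK2, hK3⟩ := h f J
    refine ⟨K, hK1, hK2, fun x => (hK3 x).trans ?_⟩
    exact mul_le_mul_of_nonneg_right (le_max_left _ _) (by positivity)

/-- The choice of the truncation level. -/
theorem exists_level {P r A U e : ℝ} (hP : 1 ≤ P) (hPr : P < r) (hA : 1 ≤ A) (hU : 1 ≤ U)
    (he : 0 < e) (he1 : e ≤ 1) :
    ∃ Λ : ℝ, 1 ≤ Λ ∧ Λ = (5 * A * U ^ (1 / P) / e) ^ (1 / (r / P - 1)) ∧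
      4 * Λ * A * (U * Λ ^ (-r)) ^ (1 / P) + A * (U * Λ ^ (-r)) ^ (1 / P - 1 / r) ≤ e := by
  have hP0 : 0 < P := by linarith
  have hr0 : 0 < r := by linarith
  have hβ : 0 < r / P - 1 := by
    rw [sub_pos, one_lt_div hP0]; exact hPr
  set β := r / P - 1 with hβdef
  have hU1 : 1 ≤ U ^ (1 / P) := Real.one_le_rpow hU (by positivity)
  set Y : ℝ := 5 * A * U ^ (1 / P) / e with hY
  have hY1 : 1 ≤ Y := by
    rw [hY, le_div_iff₀ he]
    nlinarith
  have hY0 : 0 < Y := by linarith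
  refine ⟨Y ^ (1 / β), Real.one_le_rpow hY1 (by positivity), rfl, ?_⟩
  set Λ := Y ^ (1 / β) with hΛ
  have hΛ1 : 1 ≤ Λ := Real.one_le_rpow hY1 (by positivity)
  have hΛ0 : 0 < Λ := by linarith
  have hΛβ : Λ ^ (-β) = Y⁻¹ := by
    rw [hΛ, ← Real.rpow_mul hY0.le]
    have : 1 / β * -β = -1 := by field_simp
    rw [this, Real.rpow_neg_one]
  have hU0 : 0 < U := by linarith
  have h1 : (U * Λ ^ (-r)) ^ (1 / P) = U ^ (1 / P) * Λ ^ (-(r / P)) := by
    rw [Real.mul_rpow hU0.le (by positivity), ← Real.rpow_mul hΛ0.le]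
    congr 2
    field_simp
  have h2 : (U * Λ ^ (-r)) ^ (1 / P - 1 / r) = U ^ (1 / P - 1 / r) * Λ ^ (-β) := by
    rw [Real.mul_rpow hU0.le (by positivity), ← Real.rpow_mul hΛ0.le]
    congr 2
    rw [hβdef]
    field_simp
  have h3 : Λ * Λ ^ (-(r / P)) = Λ ^ (-β) := by
    nth_rewrite 1 [← Real.rpow_one Λ]
    rw [← Real.rpow_add hΛ0]
    congr 1
    rw [hβdef]; ring
  have h4 : U ^ (1 / P - 1 / r) ≤ U ^ (1 / P) :=
    Real.rpow_le_rpow_of_exponent_le hU (by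
      have : 0 < 1 / r := by positivity
      linarith)
  calc 4 * Λ * A * (U * Λ ^ (-r)) ^ (1 / P) + A * (U * Λ ^ (-r)) ^ (1 / P - 1 / r)
      = 4 * A * U ^ (1 / P) * (Λ * Λ ^ (-(r / P))) + A * U ^ (1 / P - 1 / r) * Λ ^ (-β) := by
        rw [h1, h2]; ring
    _ = (4 * A * U ^ (1 / P) + A * U ^ (1 / P - 1 / r)) * Λ ^ (-β) := by rw [h3]; ring
    _ ≤ (4 * A * U ^ (1 / P) + A * U ^ (1 / P)) * Λ ^ (-β) := by
        apply mul_le_mul_of_nonneg_right _ (by positivity)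
        have := mul_le_mul_of_nonneg_left h4 (by linarith : 0 ≤ A)
        linarith
    _ = 5 * A * U ^ (1 / P) * Y⁻¹ := by rw [hΛβ]; ring
    _ = e := by
        rw [hY]
        field_simp

theorem level_le {P r CK A l δ e Λ Q B : ℝ} (hP : 1 ≤ P) (hPr : P < r) (hCK : 1 ≤ CK)
    (hA : 1 ≤ A) (hl : 1 ≤ l) (hδ : 0 < δ) (hδ1 : δ ≤ 1) (hQ : Q = A * l / δ)
    (hB : B = 80 * 2 ^ P * CK) (he : e = δ / (2 * 2 ^ P))
    (hΛ : Λ = (5 * A * (8 * (CK * l ^ (1 + r / 2))) ^ (1 / P) / e) ^ (1 / (r / P - 1))) :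
    Λ ^ P ≤ B ^ (P / (r / P - 1)) * Q ^ ((1 + r / 2) * P / (r / P - 1)) := by
  have hP0 : 0 < P := by linarith
  have hr0 : 0 < r := by linarith
  have hβ : 0 < r / P - 1 := by rw [sub_pos, one_lt_div hP0]; exact hPr
  set β := r / P - 1 with hβdef
  have hlr : 1 ≤ l ^ (1 + r / 2) := Real.one_le_rpow hl (by positivity)
  set U : ℝ := CK * l ^ (1 + r / 2) with hU
  have hU1 : 1 ≤ U := one_le_mul_of_one_le_of_one_le hCK hlr
  have h2P0 : (0 : ℝ) < 2 ^ P := by positivity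
  have he0 : 0 < e := by rw [he]; positivity
  have hQ0 : 0 < Q := by rw [hQ]; positivity
  have hB0 : 0 < B := by rw [hB]; positivity
  have hU8 : (8 * U) ^ (1 / P) ≤ 8 * U := by
    calc (8 * U) ^ (1 / P) ≤ (8 * U) ^ (1 : ℝ) :=
          Real.rpow_le_rpow_of_exponent_le (by linarith) (by
            rw [div_le_one hP0]; exact hP)
      _ = _ := Real.rpow_one _
  have hAl : A * l ^ (1 + r / 2) / δ ≤ Q ^ (1 + r / 2) := by
    rw [hQ, Real.div_rpow (by positivity) hδ.le, Real.mul_rpow (by linarith) (by linarith)]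
    have h1 : A ≤ A ^ (1 + r / 2) := by
      nth_rewrite 1 [← Real.rpow_one A]
      exact Real.rpow_le_rpow_of_exponent_le hA (by linarith)
    have h2 : δ ^ (1 + r / 2) ≤ δ := by
      nth_rewrite 2 [← Real.rpow_one δ]
      exact Real.rpow_le_rpow_of_exponent_ge hδ hδ1 (by linarith)
    gcongr
  have hstep : 5 * A * (8 * U) ^ (1 / P) / e ≤ B * Q ^ (1 + r / 2) := by
    calc 5 * A * (8 * U) ^ (1 / P) / e ≤ 5 * A * (8 * U) / e := by gcongr
      _ = B * (A * l ^ (1 + r / 2) / δ) := by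
          rw [he, hU, hB]; field_simp; ring
      _ ≤ B * Q ^ (1 + r / 2) := mul_le_mul_of_nonneg_left hAl (by linarith)
  have hY0 : 0 ≤ 5 * A * (8 * U) ^ (1 / P) / e := by positivity
  have hZ0 : 0 ≤ B * Q ^ (1 + r / 2) := by positivity
  have hΛ0 : 0 ≤ Λ := by rw [hΛ]; exact Real.rpow_nonneg hY0 _
  have hΛle : Λ ≤ (B * Q ^ (1 + r / 2)) ^ (1 / β) := by
    rw [hΛ]
    exact Real.rpow_le_rpow hY0 hstep (by positivity)
  calc Λ ^ P ≤ ((B * Q ^ (1 + r / 2)) ^ (1 / β)) ^ P :=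
        Real.rpow_le_rpow hΛ0 hΛle hP0.le
    _ = (B * Q ^ (1 + r / 2)) ^ (P / β) := by
        rw [← Real.rpow_mul hZ0]
        congr 1
        field_simp
    _ = B ^ (P / β) * Q ^ ((1 + r / 2) * P / β) := by
        rw [Real.mul_rpow hB0.le (by positivity), ← Real.rpow_mul hQ0.le]
        congr 2
        field_simp

theorem dim_le {P A l δ Λ Q B a b X m : ℝ} (hP : 1 ≤ P) (hA : 1 ≤ A) (hl : 1 ≤ l) (hδ : 0 < δ)
    (hδ1 : δ ≤ 1) (hQ : Q = A * l / δ) (hB : 1 ≤ B) (ha : 0 ≤ a) (hb : 0 ≤ b) (hΛ0 : 0 ≤ Λ)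
    (hΛ : Λ ^ P ≤ B ^ a * Q ^ b) (hX : X ≤ 4 * ((4 * Λ * A) ^ P) * 2 ^ P * (2 * l) / (δ / 2) ^ 2)
    (hm : m ≤ X + 2) : m ≤ (32 * 8 ^ P + 2) * B ^ a * Q ^ (b + P + 2) := by
  have hP0 : 0 < P := by linarith
  have hQ1 : 1 ≤ Q := by
    rw [hQ, le_div_iff₀ hδ]
    nlinarith
  have hQ0 : 0 < Q := by linarith
  have hAP : A ^ P * (l / δ ^ 2) ≤ Q ^ (P + 2) := by
    have h0 : Q ^ (P + 2) = Q ^ P * Q ^ (2 : ℝ) := Real.rpow_add (by linarith) _ _
    have h1 : A ^ P ≤ Q ^ P := by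
      apply Real.rpow_le_rpow (by linarith) _ hP0.le
      rw [hQ, le_div_iff₀ hδ]
      nlinarith
    have h2 : l / δ ^ 2 ≤ Q ^ (2 : ℝ) := by
      rw [Real.rpow_two, hQ, div_pow]
      gcongr
      have : 1 ≤ A * l := one_le_mul_of_one_le_of_one_le hA hl
      nlinarith
    rw [h0]
    exact mul_le_mul h1 h2 (by positivity) (by positivity)
  have e1 : (4 * Λ * A) ^ P = 4 ^ P * Λ ^ P * A ^ P := by
    rw [Real.mul_rpow (by positivity) (by linarith), Real.mul_rpow (by norm_num) hΛ0]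
  have e2 : (8 : ℝ) ^ P = 4 ^ P * 2 ^ P := by
    rw [← Real.mul_rpow (by norm_num) (by norm_num)]; norm_num
  have h8 : (0 : ℝ) < 8 ^ P := by positivity
  have hΛP0 : 0 ≤ Λ ^ P := Real.rpow_nonneg hΛ0 _
  have hQP0 : 0 < Q ^ (P + 2) := by positivity
  have hXle : X ≤ 32 * 8 ^ P * Λ ^ P * Q ^ (P + 2) := by
    calc X ≤ 4 * ((4 * Λ * A) ^ P) * 2 ^ P * (2 * l) / (δ / 2) ^ 2 := hX
      _ = 32 * (4 ^ P * 2 ^ P) * Λ ^ P * (A ^ P * (l / δ ^ 2)) := by
          rw [e1]; field_simp; ring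
      _ ≤ 32 * (4 ^ P * 2 ^ P) * Λ ^ P * Q ^ (P + 2) :=
          mul_le_mul_of_nonneg_left hAP (by positivity)
      _ = _ := by rw [e2]
  have hBQ : 1 ≤ B ^ a * Q ^ b :=
    one_le_mul_of_one_le_of_one_le (Real.one_le_rpow hB ha) (Real.one_le_rpow hQ1 hb)
  have hbig : 1 ≤ B ^ a * Q ^ b * Q ^ (P + 2) :=
    one_le_mul_of_one_le_of_one_le hBQ (Real.one_le_rpow hQ1 (by positivity))
  have h1 : 32 * 8 ^ P * Λ ^ P * Q ^ (P + 2) ≤ 32 * 8 ^ P * (B ^ a * Q ^ b) * Q ^ (P + 2) :=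
    mul_le_mul_of_nonneg_right (mul_le_mul_of_nonneg_left hΛ (by positivity)) hQP0.le
  calc m ≤ 32 * 8 ^ P * (B ^ a * Q ^ b) * Q ^ (P + 2) + 2 * (B ^ a * Q ^ b * Q ^ (P + 2)) := by
        linarith
    _ = (32 * 8 ^ P + 2) * B ^ a * (Q ^ b * Q ^ (P + 2)) := by ring
    _ = _ := by
        rw [← Real.rpow_add hQ0]
        congr 2
        ring

theorem flat_embed (p : ℝ≥0∞) [Fact (1 ≤ p)] (hp : p ≠ ∞) (r : ℝ) (hpr : p.toReal < r) :
    ∃ C : ℝ, 1 ≤ C ∧ ∀ (V : Type) [Fintype V] [Nonempty V] (M : ℕ), 0 < M →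
      ∀ (g : V → Fin M → ℝ) (A : ℝ), 1 ≤ A →
      (∀ x y, (M : ℝ) ^ (-(1 / r)) * lpd r g x y ≤
        A * ((M : ℝ) ^ (-(1 / p.toReal)) * lpd p.toReal g x y)) →
      ∀ δ : ℝ, 0 < δ → δ ≤ 1 →
      ∃ (d : ℕ) (W : V → PiLp p (fun _ : Fin d => ℝ)),
        (d : ℝ) ≤ C * (A * (1 + Real.log (Fintype.card V)) / δ) ^ C ∧
        ∀ x y, (1 - δ) * lpd p.toReal g x y ^ p.toReal ≤ ‖W x - W y‖ ^ p.toReal ∧
          ‖W x - W y‖ ^ p.toReal ≤ (1 + δ) * lpd p.toReal g x y ^ p.toReal := by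
  have hP0 := toReal_pos_of_fact (p := p) hp
  have hP1 := one_le_toReal_of_fact (p := p) hp
  set P := p.toReal with hPdef
  have hr1 : 1 < r := by linarith
  have hr0 : 0 < r := by linarith
  obtain ⟨CK, hCK1, hK⟩ := kern r hr1
  have hβ : 0 < r / P - 1 := by rw [sub_pos, one_lt_div hP0]; exact hpr
  set β := r / P - 1 with hβdef
  have h2P1 : (1 : ℝ) ≤ 2 ^ P := Real.one_le_rpow (by norm_num) hP0.le
  have hP2P : P ≤ 2 ^ P := by
    have h := one_add_mul_self_le_rpow_one_add (s := 1) (by norm_num) hP1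
    norm_num at h
    linarith
  set B : ℝ := 80 * 2 ^ P * CK with hB
  have hB1 : 1 ≤ B := by rw [hB]; nlinarith
  set C₁ : ℝ := (32 * 8 ^ P + 2) * B ^ (P / β) with hC₁
  set C₂ : ℝ := (1 + r / 2) * P / β + P + 2 with hC₂
  have hC₂0 : 0 < C₂ := by rw [hC₂]; positivity
  have hC₁0 : 0 < C₁ := by rw [hC₁]; positivity
  refine ⟨max (max C₁ C₂) 1, le_max_right _ _, ?_⟩
  intro V _ _ M hM g A hA hflat δ hδ hδ1
  have hM0 : (0 : ℝ) < M := by exact_mod_cast hM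
  have hcard : (1 : ℝ) ≤ Fintype.card V := by exact_mod_cast Fintype.card_pos
  have hl0 : 0 ≤ Real.log (Fintype.card V) := Real.log_nonneg hcard
  set l : ℝ := 1 + Real.log (Fintype.card V) with hl
  have hl1 : 1 ≤ l := by rw [hl]; linarith
  set Q : ℝ := A * l / δ with hQ
  have hQ1 : 1 ≤ Q := by
    rw [hQ, le_div_iff₀ hδ]
    nlinarith
  set U : ℝ := CK * l ^ (1 + r / 2) with hU
  have hlr : 1 ≤ l ^ (1 + r / 2) := Real.one_le_rpow hl1 (by positivity)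
  have hU1 : 1 ≤ U := by rw [hU]; exact one_le_mul_of_one_le_of_one_le hCK1 hlr
  set e : ℝ := δ / (2 * 2 ^ P) with he
  have he0 : 0 < e := by positivity
  have he1 : e ≤ 1 := by
    rw [he, div_le_one (by positivity)]
    linarith
  have he2 : 2 ^ P * e = δ / 2 := by rw [he]; field_simp
  obtain ⟨Λ, hΛ1, hΛ, hE⟩ := exists_level hP1 hpr hA (by linarith : 1 ≤ 8 * U) he0 he1
  have hΛ0 : 0 < Λ := by linarith
  obtain ⟨H, hH1, hH2⟩ := flat_trunc hP1 hpr hM g (by linarith : 0 < A) (by linarith : 0 ≤ U) hΛ0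
    (hK g) hflat
  set ρ : V → V → ℝ := fun x y => lpd P g x y with hρ
  have hρ0 : ∀ x y, 0 ≤ ρ x y := fun x y => lpd_nonneg g x y
  have hHe : ∀ x y, |lpd P H x y - ρ x y| ≤ e * ρ x y := fun x y =>
    (hH2 x y).trans (mul_le_mul_of_nonneg_right hE (hρ0 x y))
  have hHP : ∀ x y, |lpd P H x y ^ P - ρ x y ^ P| ≤ δ / 2 * ρ x y ^ P := fun x y =>
    near_pow hP1 (lpd_nonneg H x y) (hρ0 x y) he0.le he1 (hHe x y) he2.le
      ((mul_le_mul_of_nonneg_right hP2P he0.le).trans he2.le)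
  -- sampling
  set Uf : V → PiLp p (fun _ : Fin M => ℝ) := fun x => WithLp.toLp p (H x) with hUf
  have hUn : ∀ x y, lpd P H x y = ‖Uf x - Uf y‖ := fun x y => lpd_eq_norm hp H x y
  set θ : ℝ := 4 * Λ * A * (M : ℝ) ^ (-(1 / P)) with hθ
  have hθ0 : 0 < θ := by positivity
  have hNθ : (M : ℝ) * θ ^ P = (4 * Λ * A) ^ P := by
    rw [hθ, Real.mul_rpow (by positivity) (by positivity), ← Real.rpow_mul hM0.le]
    have : -(1 / P) * P = -1 := by field_simp
    rw [this, Real.rpow_neg_one]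
    field_simp
  set X : ℝ := 4 * (M * θ ^ P) * 2 ^ P * Real.log (2 * (Fintype.card V : ℝ) ^ 2 + 1) /
    (δ / 2) ^ 2 with hX
  have hlogn : Real.log (2 * (Fintype.card V : ℝ) ^ 2 + 1) ≤ 2 * l := by
    have h1 : 2 * (Fintype.card V : ℝ) ^ 2 + 1 ≤ 3 * (Fintype.card V : ℝ) ^ 2 := by nlinarith
    have h2 : Real.log (3 * (Fintype.card V : ℝ) ^ 2) =
        Real.log 3 + 2 * Real.log (Fintype.card V) := by
      rw [Real.log_mul (by norm_num) (by positivity), Real.log_pow]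
      push_cast; ring
    have h3 : Real.log 3 ≤ 2 := by
      have := Real.log_le_sub_one_of_pos (show (0 : ℝ) < 3 by norm_num)
      linarith
    have h4 := Real.log_le_log (by positivity) h1
    rw [hl]
    linarith
  have hlogn0 : 0 ≤ Real.log (2 * (Fintype.card V : ℝ) ^ 2 + 1) :=
    Real.log_nonneg (by nlinarith)
  have hX0 : 0 ≤ X := by positivity
  set m : ℕ := ⌈X⌉₊ + 1 with hm
  have hm0 : 0 < m := Nat.succ_pos _
  have hXm : X ≤ m := by
    rw [hm]; push_cast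
    have := Nat.le_ceil X
    linarith
  have hmX : (m : ℝ) ≤ X + 2 := by
    rw [hm]; push_cast
    have := Nat.ceil_lt_add_one hX0
    linarith
  obtain ⟨W, -, hW⟩ := sample_map hp hM hm0 Uf ρ hρ0 θ hθ0
    (by
      intro x y i
      have h1 := hH1 x y i
      exact h1)
    2 (δ / 2) (by norm_num)
    (by
      intro x y
      have h1 := (abs_le.1 (hHe x y)).2
      rw [← hUn]
      have h2 := mul_le_mul_of_nonneg_right he1 (hρ0 x y)
      linarith)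
    (by linarith)
    (by
      have h1 : (1 : ℝ) ≤ 2 ^ P := h2P1
      linarith)
    (by
      have h1 : 0 < (δ / 2) ^ 2 := by positivity
      rw [hX, div_le_iff₀ h1] at hXm
      linarith)
  refine ⟨m, W, ?_, fun x y => ?_⟩
  · -- the dimension
    have hΛP := level_le hP1 hpr hCK1 hA hl1 hδ hδ1 hQ hB he hΛ
    have hXle : X ≤ 4 * ((4 * Λ * A) ^ P) * 2 ^ P * (2 * l) / (δ / 2) ^ 2 := by
      rw [hX, hNθ]
      have h1 : 0 ≤ 4 * (4 * Λ * A) ^ P * 2 ^ P := by positivity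
      exact div_le_div_of_nonneg_right (mul_le_mul_of_nonneg_left hlogn h1) (sq_nonneg _)
    have hfin := dim_le hP1 hA hl1 hδ hδ1 hQ hB1 (by positivity) (by positivity) hΛ0.le hΛP hXle
      hmX
    refine hfin.trans ?_
    have e1 : (1 + r / 2) * P / (r / P - 1) + P + 2 = C₂ := by rw [hC₂]
    rw [e1]
    apply mul_le_mul (le_trans (le_max_left _ _) (le_max_left _ _)) _ (by positivity)
      (by positivity)
    exact Real.rpow_le_rpow_of_exponent_le hQ1 (le_trans (le_max_right _ _) (le_max_left _ _))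
  · have h1 := abs_le.1 (hW x y)
    have h2 := abs_le.1 (hHP x y)
    rw [hUn] at h2
    constructor <;> linarith [h1.1, h1.2, h2.1, h2.2]

end Vale.Agent.P249.H557
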