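import Vale.Agent.P249.Bdl.B1

/-!
# P249: finite families of functions with comparable `L_p` and `L_r` norms, `p < r`
-/

set_option linter.all false

open scoped BigOperators ENNReal

namespace Vale.Agent.P249.H557

open Vale.Agent.P249

/-- Hölder on a small set of coordinates. -/
theorem holder_bad {p r : ℝ} (hp : 1 ≤ p) (hpr : p < r) {ι : Type*} (s : Finset ι) (u : ι → ℝ)
    {k R : ℝ} (hk : (s.card : ℝ) ≤ k) (hR : 0 ≤ R) (hu : ∑ i ∈ s, |u i| ^ r ≤ R ^ r) :
    (∑ i ∈ s, |u i| ^ p) ^ (1 / p) ≤ k ^ (1 / p - 1 / r) * R := by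
  have hp0 : 0 < p := by linarith
  have hr0 : 0 < r := by linarith
  have hk0 : 0 ≤ k := le_trans (Nat.cast_nonneg _) hk
  have h1 : 1 ≤ r / p := by rw [one_le_div hp0]; exact hpr.le
  have h2 := Real.rpow_sum_le_const_mul_sum_rpow s (fun i => |u i| ^ p) h1
  have h3 : ∀ i, |(|u i| ^ p)| = |u i| ^ p := fun i => abs_of_nonneg (Real.rpow_nonneg (abs_nonneg _) _)
  have h4 : ∀ i, (|u i| ^ p) ^ (r / p) = |u i| ^ r := by
    intro i
    rw [← Real.rpow_mul (abs_nonneg _)]
    congr 1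
    field_simp
  simp only [h3, h4] at h2
  set S := ∑ i ∈ s, |u i| ^ p with hS
  have hS0 : 0 ≤ S := Finset.sum_nonneg fun i _ => Real.rpow_nonneg (abs_nonneg _) _
  have h5 : S ^ (r / p) ≤ k ^ (r / p - 1) * R ^ r := by
    refine h2.trans ?_
    exact mul_le_mul (Real.rpow_le_rpow (Nat.cast_nonneg _) hk (by linarith)) hu
      (Finset.sum_nonneg fun i _ => Real.rpow_nonneg (abs_nonneg _) _) (Real.rpow_nonneg hk0 _)
  have h6 := Real.rpow_le_rpow (Real.rpow_nonneg hS0 _) h5 (by positivity : 0 ≤ 1 / r)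
  rw [← Real.rpow_mul hS0, Real.mul_rpow (Real.rpow_nonneg hk0 _) (Real.rpow_nonneg hR _),
    ← Real.rpow_mul hk0, ← Real.rpow_mul hR] at h6
  have e1 : r / p * (1 / r) = 1 / p := by field_simp
  have e2 : (r / p - 1) * (1 / r) = 1 / p - 1 / r := by field_simp
  have e3 : r * (1 / r) = 1 := by field_simp
  rw [e1, e2, e3, Real.rpow_one] at h6
  exact h6

/-- The `ℓ_p` distances of two maps differ at most by the norm of the difference. -/
theorem abs_lpd_sub_le {p : ℝ} (hp : 1 ≤ p) {V : Type*} {M : ℕ} (H g : V → Fin M → ℝ) (x y : V)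
    (s : Finset (Fin M)) (hs : ∀ i, i ∉ s → H x i - H y i = g x i - g y i) :
    |lpd p H x y - lpd p g x y| ≤
      (∑ i ∈ s, |H x i - H y i| ^ p) ^ (1 / p) + (∑ i ∈ s, |g x i - g y i| ^ p) ^ (1 / p) := by
  have hp0 : 0 < p := by linarith
  set D : Fin M → ℝ := fun i => (H x i - H y i) - (g x i - g y i) with hD
  have hDs : ∑ i, |D i| ^ p = ∑ i ∈ s, |D i| ^ p := by
    symm
    refine Finset.sum_subset (Finset.subset_univ s) fun i _ hi => ?_
    rw [hD]
    simp only [hs i hi, sub_self, abs_zero, Real.zero_rpow hp0.ne']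
  have h1 : (∑ i, |D i| ^ p) ^ (1 / p) ≤
      (∑ i ∈ s, |H x i - H y i| ^ p) ^ (1 / p) + (∑ i ∈ s, |g x i - g y i| ^ p) ^ (1 / p) := by
    rw [hDs]
    have h := Real.Lp_add_le s (fun i => H x i - H y i) (fun i => -(g x i - g y i)) hp
    simp only [abs_neg] at h
    simpa only [hD, sub_eq_add_neg] using h
  have h2 := Real.Lp_add_le Finset.univ (fun i => g x i - g y i) D hp
  have h3 := Real.Lp_add_le Finset.univ (fun i => H x i - H y i) (fun i => - D i) hp
  have e2 : ∀ i, g x i - g y i + D i = H x i - H y i := fun i => by simp only [hD]; ring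
  have e3 : ∀ i, H x i - H y i + - D i = g x i - g y i := fun i => by simp only [hD]; ring
  simp only [e2] at h2
  simp only [e3, abs_neg] at h3
  rw [abs_le]
  unfold lpd
  constructor <;> linarith

/-- Truncation of a flat family: all coordinates become Lipschitz. -/
theorem flat_trunc {p r : ℝ} (hp : 1 ≤ p) (hpr : p < r) {V : Type*} [Fintype V] {M : ℕ}
    (hM : 0 < M) (g : V → Fin M → ℝ) {A U Λ : ℝ} (hA : 0 < A) (hU : 0 ≤ U) (hΛ : 0 < Λ)
    (hK : HasKernels r (lpd r g) U)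
    (hflat : ∀ x y, (M : ℝ) ^ (-(1 / r)) * lpd r g x y ≤
      A * ((M : ℝ) ^ (-(1 / p)) * lpd p g x y)) :
    ∃ H : V → Fin M → ℝ,
      (∀ x y i, |H x i - H y i| ≤ 4 * Λ * A * (M : ℝ) ^ (-(1 / p)) * lpd p g x y) ∧
      ∀ x y, |lpd p H x y - lpd p g x y| ≤
        (4 * Λ * A * (8 * U * Λ ^ (-r)) ^ (1 / p) + A * (8 * U * Λ ^ (-r)) ^ (1 / p - 1 / r)) *
          lpd p g x y := by
  classical
  have hp0 : 0 < p := by linarith
  have hr0 : 0 < r := by linarith
  have hr1 : 1 ≤ r := by linarith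
  have hM0 : (0 : ℝ) < M := by exact_mod_cast hM
  obtain ⟨J, hJ⟩ := exists_scales (lpd r g)
  obtain ⟨K, hKs, hTV, hE⟩ := hK J
  have hWsum : ∀ x, ∑ i, Wen r g J K x i ≤ U := fun x => by
    rw [sum_Wen g J K hr0]; exact hE x
  have hW0 : ∀ x i, 0 ≤ Wen r g J K x i := fun x i => Wen_nonneg g J K hKs x i
  set t : ℝ := Λ * (M : ℝ) ^ (-(1 / r)) with ht
  have ht0 : 0 < t := by positivity
  have htr : t ^ r = Λ ^ r * (M : ℝ)⁻¹ := by
    rw [ht, Real.mul_rpow hΛ.le (by positivity), ← Real.rpow_mul hM0.le]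
    have : -(1 / r) * r = -1 := by field_simp
    rw [this, Real.rpow_neg_one]
  have hLip : ∀ x y, 4 * t * lpd r g x y ≤ 4 * Λ * A * (M : ℝ) ^ (-(1 / p)) * lpd p g x y := by
    intro x y
    have h1 := mul_le_mul_of_nonneg_left (hflat x y) (by positivity : 0 ≤ 4 * Λ)
    calc 4 * t * lpd r g x y = 4 * Λ * ((M : ℝ) ^ (-(1 / r)) * lpd r g x y) := by rw [ht]; ring
      _ ≤ 4 * Λ * (A * ((M : ℝ) ^ (-(1 / p)) * lpd p g x y)) := h1
      _ = _ := by ring
  -- extensions
  have hext : ∀ i : Fin M, ∃ H : V → ℝ,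
      (∀ x y, |H x - H y| ≤ 4 * t * lpd r g x y) ∧ ∀ x, Good g J K t i x → H x = g x i := by
    intro i
    refine mcshane (fun x y => 4 * t * lpd r g x y) ?_ ?_ ?_ (Good g J K t i) (fun x => g x i) ?_
    · intro x; simp only [lpd_self g hr0, mul_zero]
    · intro x y; simp only [lpd_comm g x y]
    · intro x y z
      have := mul_le_mul_of_nonneg_left (lpd_triangle g hr1 x y z) (by positivity : 0 ≤ 4 * t)
      linarith only [this]
    · intro x y hx hy
      exact good_lip g J K hKs hr0 hJ hTV ht0 i x y hx hy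
  choose H hH1 hH2 using hext
  refine ⟨fun x i => H i x, fun x y i => (hH1 i x y).trans (hLip x y), fun x y => ?_⟩
  -- the bad coordinates
  set s : Finset (Fin M) := Finset.univ.filter
    (fun i => ¬ (Good g J K t i x ∧ Good g J K t i y)) with hs
  have hcard : (s.card : ℝ) ≤ 8 * U * Λ ^ (-r) * M := by
    have h1 : (s.card : ℝ) * t ^ r ≤ 8 * U := by
      calc (s.card : ℝ) * t ^ r = ∑ i ∈ s, t ^ r := by rw [Finset.sum_const, nsmul_eq_mul]
        _ ≤ ∑ i ∈ s, 4 * (Wen r g J K x i + Wen r g J K y i) := by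
            refine Finset.sum_le_sum fun i hi => ?_
            have hng := (Finset.mem_filter.1 hi).2
            rw [not_and_or] at hng
            rcases hng with hng | hng
            · have := le_Wen_of_not_good g J K hKs hr0 ht0 i x hng
              linarith only [hW0 y i, this]
            · have := le_Wen_of_not_good g J K hKs hr0 ht0 i y hng
              linarith only [hW0 x i, this]
        _ ≤ ∑ i, 4 * (Wen r g J K x i + Wen r g J K y i) :=
            Finset.sum_le_sum_of_subset_of_nonneg (Finset.subset_univ _)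
              fun i _ _ => by linarith only [hW0 x i, hW0 y i]
        _ = 4 * (∑ i, Wen r g J K x i + ∑ i, Wen r g J K y i) := by
            rw [← Finset.mul_sum, Finset.sum_add_distrib]
        _ ≤ 8 * U := by linarith only [hWsum x, hWsum y]
    rw [htr] at h1
    have hΛr : 0 < Λ ^ r := Real.rpow_pos_of_pos hΛ _
    have h2 : (s.card : ℝ) ≤ 8 * U / (Λ ^ r * (M : ℝ)⁻¹) := by
      rw [le_div_iff₀ (by positivity)]; exact h1
    refine h2.trans (le_of_eq ?_)
    rw [Real.rpow_neg hΛ.le]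
    field_simp
  have h1 := abs_lpd_sub_le hp (fun x i => H i x) g x y s (by
    intro i hi
    have hi' : Good g J K t i x ∧ Good g J K t i y := by
      by_contra hcon
      exact hi (Finset.mem_filter.2 ⟨Finset.mem_univ i, hcon⟩)
    show H i x - H i y = g x i - g y i
    rw [hH2 i x hi'.1, hH2 i y hi'.2])
  refine h1.trans ?_
  set κ : ℝ := 8 * U * Λ ^ (-r) with hκ
  have hκ0 : 0 ≤ κ := by positivity
  have hρ0 := lpd_nonneg g x y (P := p)
  have hρr0 := lpd_nonneg g x y (P := r)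
  have hMp : ((M : ℝ) ^ (1 / p)) * (M : ℝ) ^ (-(1 / p)) = 1 := by
    rw [← Real.rpow_add hM0]; simp
  -- first part
  have h2 : (∑ i ∈ s, |H i x - H i y| ^ p) ^ (1 / p) ≤ 4 * Λ * A * κ ^ (1 / p) * lpd p g x y := by
    set B : ℝ := 4 * Λ * A * (M : ℝ) ^ (-(1 / p)) * lpd p g x y with hB
    have hB0 : 0 ≤ B := by positivity
    have h3 : ∑ i ∈ s, |H i x - H i y| ^ p ≤ κ * M * B ^ p := by
      calc ∑ i ∈ s, |H i x - H i y| ^ p ≤ ∑ i ∈ s, B ^ p := by
            refine Finset.sum_le_sum fun i _ => ?_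
            exact Real.rpow_le_rpow (abs_nonneg _) ((hH1 i x y).trans (hLip x y)) hp0.le
        _ = s.card * B ^ p := by rw [Finset.sum_const, nsmul_eq_mul]
        _ ≤ κ * M * B ^ p := mul_le_mul_of_nonneg_right hcard (Real.rpow_nonneg hB0 _)
    calc (∑ i ∈ s, |H i x - H i y| ^ p) ^ (1 / p) ≤ (κ * M * B ^ p) ^ (1 / p) :=
          Real.rpow_le_rpow (Finset.sum_nonneg fun i _ => Real.rpow_nonneg (abs_nonneg _) _) h3
            (by positivity)
      _ = κ ^ (1 / p) * (M : ℝ) ^ (1 / p) * B := by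
          rw [Real.mul_rpow (by positivity) (Real.rpow_nonneg hB0 _), Real.mul_rpow hκ0 hM0.le,
            ← Real.rpow_mul hB0, mul_one_div_cancel hp0.ne', Real.rpow_one]
      _ = 4 * Λ * A * κ ^ (1 / p) * lpd p g x y * ((M : ℝ) ^ (1 / p) * (M : ℝ) ^ (-(1 / p))) := by
          rw [hB]; ring
      _ = _ := by rw [hMp, mul_one]
  -- second part
  have h4 : (∑ i ∈ s, |g x i - g y i| ^ p) ^ (1 / p) ≤
      A * κ ^ (1 / p - 1 / r) * lpd p g x y := by
    have hpr' : 0 ≤ 1 / p - 1 / r := by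
      rw [sub_nonneg]
      exact one_div_le_one_div_of_le hp0 hpr.le
    have h5 := holder_bad hp hpr s (fun i => g x i - g y i) hcard hρr0 (by
      rw [lpd_rpow g hr0]
      exact Finset.sum_le_sum_of_subset_of_nonneg (Finset.subset_univ _)
        fun i _ _ => Real.rpow_nonneg (abs_nonneg _) _)
    refine h5.trans ?_
    rw [Real.mul_rpow hκ0 hM0.le]
    have h6 : (M : ℝ) ^ (1 / p - 1 / r) = (M : ℝ) ^ (1 / p) * (M : ℝ) ^ (-(1 / r)) := by
      rw [← Real.rpow_add hM0]; congr 1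
    rw [h6]
    calc κ ^ (1 / p - 1 / r) * ((M : ℝ) ^ (1 / p) * (M : ℝ) ^ (-(1 / r))) * lpd r g x y
        = κ ^ (1 / p - 1 / r) * (M : ℝ) ^ (1 / p) * ((M : ℝ) ^ (-(1 / r)) * lpd r g x y) := by ring
      _ ≤ κ ^ (1 / p - 1 / r) * (M : ℝ) ^ (1 / p) *
          (A * ((M : ℝ) ^ (-(1 / p)) * lpd p g x y)) :=
          mul_le_mul_of_nonneg_left (hflat x y) (by positivity)
      _ = A * κ ^ (1 / p - 1 / r) * lpd p g x y * ((M : ℝ) ^ (1 / p) * (M : ℝ) ^ (-(1 / p))) := by
          ring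
      _ = _ := by rw [hMp, mul_one]
  calc _ ≤ 4 * Λ * A * κ ^ (1 / p) * lpd p g x y + A * κ ^ (1 / p - 1 / r) * lpd p g x y :=
        add_le_add h2 h4
    _ = _ := by ring

end Vale.Agent.P249.H557
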