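import Mathlib

/-!
# P249: a finite sample with prescribed averages
-/

set_option linter.all false

open MeasureTheory Filter ProbabilityTheory
open scoped BigOperators ENNReal Topology

namespace Vale.Agent.P249.H557

/-- Finitely many integrable functions have almost their means on a finite sample. -/
theorem lln {Ω : Type*} [MeasurableSpace Ω] (P : Measure Ω) [IsProbabilityMeasure P] {ι : Type*}
    [Fintype ι] (Z : ι → Ω → ℝ) (hZ : ∀ a, Measurable (Z a)) (hi : ∀ a, Integrable (Z a) P)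
    {η : ℝ} (hη : 0 < η) :
    ∃ M : ℕ, 0 < M ∧ ∃ w : Fin M → Ω, ∀ a, |(∑ i, Z a (w i)) / M - ∫ ω, Z a ω ∂P| ≤ η := by
  classical
  set Q : Measure (ℕ → Ω) := Measure.infinitePi (fun _ : ℕ => P) with hQ
  have h1 : ∀ a, ∀ᵐ ω ∂Q, Tendsto (fun n : ℕ => (∑ i ∈ Finset.range n, Z a (ω i)) / n) atTop
      (𝓝 (∫ ω, Z a ω ∂P)) := by
    intro a
    have hmp : ∀ i, MeasurePreserving (Function.eval i) Q P := fun i =>
      measurePreserving_eval_infinitePi (fun _ : ℕ => P) i
    have hint : Integrable (fun ω : ℕ → Ω => Z a (ω 0)) Q :=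
      (hmp 0).integrable_comp_of_integrable (hi a)
    have hindep : Pairwise (fun i j : ℕ =>
        IndepFun (fun ω : ℕ → Ω => Z a (ω i)) (fun ω : ℕ → Ω => Z a (ω j)) Q) := by
      intro i j hij
      exact (iIndepFun_infinitePi (P := fun _ : ℕ => P) (X := fun _ : ℕ => Z a)
        (fun _ => hZ a)).indepFun hij
    have hident : ∀ i, IdentDistrib (fun ω : ℕ → Ω => Z a (ω i)) (fun ω : ℕ → Ω => Z a (ω 0))
        Q Q := by
      intro i
      refine ⟨((hZ a).comp (measurable_pi_apply i)).aemeasurable,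
        ((hZ a).comp (measurable_pi_apply 0)).aemeasurable, ?_⟩
      have e : ∀ j : ℕ, Measure.map (fun ω : ℕ → Ω => Z a (ω j)) Q = Measure.map (Z a) P := by
        intro j
        rw [← (hmp j).map_eq, Measure.map_map (hZ a) (measurable_pi_apply j)]
        rfl
      rw [e i, e 0]
    have h := strong_law_ae_real (fun (i : ℕ) (ω : ℕ → Ω) => Z a (ω i)) hint hindep hident
    have hval : ∫ ω, Z a (ω 0) ∂Q = ∫ ω, Z a ω ∂P := by
      have h2 := integral_map (μ := Q) (φ := Function.eval 0) (hmp 0).measurable.aemeasurable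
        (f := Z a) (by rw [(hmp 0).map_eq]; exact (hZ a).aestronglyMeasurable)
      rw [(hmp 0).map_eq] at h2
      exact h2.symm
    rw [hval] at h
    exact h
  have h2 : ∀ᵐ ω ∂Q, ∀ a, Tendsto (fun n : ℕ => (∑ i ∈ Finset.range n, Z a (ω i)) / n) atTop
      (𝓝 (∫ ω, Z a ω ∂P)) := ae_all_iff.2 h1
  obtain ⟨ω, hω⟩ := h2.exists
  have h3 : ∀ᶠ n : ℕ in atTop, ∀ a,
      |(∑ i ∈ Finset.range n, Z a (ω i)) / n - ∫ ω, Z a ω ∂P| ≤ η := by
    rw [eventually_all]
    intro a
    have h4 := (hω a).eventually (Metric.closedBall_mem_nhds _ hη)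
    filter_upwards [h4] with n hn
    simpa [Real.dist_eq] using hn
  obtain ⟨n, hn1, hn2⟩ := (h3.and (eventually_gt_atTop 0)).exists
  refine ⟨n, hn2, fun i => ω i, fun a => ?_⟩
  have := hn1 a
  rwa [Finset.sum_range] at this

end Vale.Agent.P249.H557
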