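import Vale.Agent.P249.H557.ThmA
import Vale.Agent.P249.H75.TwoMoment

/-!
# P249: finite subsets of `L_q` in `ℓ_p^d`, `1 ≤ p < q ≤ 2`, with polylogarithmic `d`
-/

set_option linter.all false

open MeasureTheory
open scoped BigOperators ENNReal

namespace Vale.Agent.P249.H557

open Vale.Agent.P249

theorem embed_lq (p q : ℝ≥0∞) [Fact (1 ≤ p)] [Fact (1 ≤ q)] (hpq : p < q) (hq : q ≤ 2) :
    ∃ C : ℝ, 1 ≤ C ∧ ∀ n : ℕ, 2 ≤ n → ∀ ε : ℝ, 0 < ε → ε ≤ 1 →
      ∀ (Ω : Type) [MeasurableSpace Ω] (μ : Measure Ω) (X : Finset (Lp ℝ q μ)), X.card ≤ n →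
        ∃ d : ℕ, (d : ℝ) ≤ C * ((1 + Real.log n) / ε) ^ C ∧ Embeds X p d (1 + ε) := by
  classical
  have hqt : q ≠ ∞ := ne_top_of_le_ne_top (by norm_num) hq
  have hp : p ≠ ∞ := ne_top_of_lt hpq
  have hP0 := toReal_pos_of_fact (p := p) hp
  have hP1 := one_le_toReal_of_fact (p := p) hp
  have hPQ : p.toReal < q.toReal := (ENNReal.toReal_lt_toReal hp hqt).2 hpq
  set P := p.toReal with hP
  set r : ℝ := (P + q.toReal) / 2 with hr
  have hPr : P < r := by rw [hr]; linarith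
  have hrQ : r < q.toReal := by rw [hr]; linarith
  have hr0 : 0 < r := by linarith
  obtain ⟨C₁, hC₁, H₁⟩ := Vale.Agent.P249.H75.exists_stable_map q hq hP1 hPQ (by linarith) hrQ
  obtain ⟨C, hC1, hC⟩ := prob_embed p hp r hPr
  set A : ℝ := max C₁ 1 with hA
  have hA1 : 1 ≤ A := le_max_right _ _
  have hAC : (1 : ℝ) ≤ A ^ C := Real.one_le_rpow hA1 (by linarith)
  have hCC : C ≤ C * A ^ C := le_mul_of_one_le_right (by linarith) hAC
  refine ⟨C * A ^ C, one_le_mul_of_one_le_of_one_le hC1 hAC,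
    fun n hn ε hε hε1 Ω _ μ X hX => ?_⟩
  have hnr : (1 : ℝ) ≤ n := by exact_mod_cast (by omega : 1 ≤ n)
  have hlog := Real.log_nonneg hnr
  have h2P1 : (1 : ℝ) ≤ 2 ^ P := Real.one_le_rpow (by norm_num) hP0.le
  have hP2P : P ≤ 2 ^ P := by
    have h := one_add_mul_self_le_rpow_one_add (s := 1) (by norm_num) hP1
    norm_num at h
    linarith
  rcases Finset.eq_empty_or_nonempty X with h0 | h0
  · subst h0
    refine ⟨0, by rw [Nat.cast_zero]; positivity, fun _ => 0, 1, one_pos, ?_⟩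
    intro x hx
    simp at hx
  have : Nonempty X := ⟨⟨h0.choose, h0.choose_spec⟩⟩
  set η : ℝ := ε / (16 * 2 ^ P) with hη
  have hη0 : 0 < η := by positivity
  have hη1 : η ≤ 1 := by
    rw [hη, div_le_one (by positivity)]
    linarith
  have hη2 : 2 ^ P * η = ε / 16 := by rw [hη]; field_simp
  obtain ⟨Ω', _, P', _, F, hFm, hF⟩ := H₁ η hη0 hη1 Ω μ X
  have hFp : ∀ x y : X, Integrable (fun ω => |F x.1 ω - F y.1 ω| ^ P) P' ∧
      (1 - ε / 16) * ‖x.1 - y.1‖ ^ P ≤ ∫ ω, |F x.1 ω - F y.1 ω| ^ P ∂P' ∧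
      ∫ ω, |F x.1 ω - F y.1 ω| ^ P ∂P' ≤ (1 + ε / 16) * ‖x.1 - y.1‖ ^ P := by
    intro x y
    obtain ⟨h1, -, h3, h4, -⟩ := hF x.1 x.2 y.1 y.2
    have hI0 : 0 ≤ ∫ ω, |F x.1 ω - F y.1 ω| ^ P ∂P' :=
      integral_nonneg fun ω => Real.rpow_nonneg (abs_nonneg _) _
    set I := (∫ ω, |F x.1 ω - F y.1 ω| ^ P ∂P') ^ (1 / P) with hI
    have hIP : I ^ P = ∫ ω, |F x.1 ω - F y.1 ω| ^ P ∂P' := by
      rw [hI, ← Real.rpow_mul hI0, one_div_mul_cancel hP0.ne', Real.rpow_one]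
    have h5 : |I - ‖x.1 - y.1‖| ≤ η * ‖x.1 - y.1‖ := by
      rw [abs_le]; constructor <;> linarith
    have h6 := near_pow hP1 (Real.rpow_nonneg hI0 _) (norm_nonneg _) hη0.le hη1 h5 hη2.le
      ((mul_le_mul_of_nonneg_right hP2P hη0.le).trans hη2.le)
    rw [hIP, abs_le] at h6
    refine ⟨h1, ?_, ?_⟩ <;> linarith [h6.1, h6.2]
  have hFr : ∀ x y : X, Integrable (fun ω => |F x.1 ω - F y.1 ω| ^ r) P' ∧
      ∫ ω, |F x.1 ω - F y.1 ω| ^ r ∂P' ≤ (A * ‖x.1 - y.1‖) ^ r := by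
    intro x y
    obtain ⟨-, h2, -, -, h5⟩ := hF x.1 x.2 y.1 y.2
    have hI0 : 0 ≤ ∫ ω, |F x.1 ω - F y.1 ω| ^ r ∂P' :=
      integral_nonneg fun ω => Real.rpow_nonneg (abs_nonneg _) _
    refine ⟨h2, ?_⟩
    have h6 : (∫ ω, |F x.1 ω - F y.1 ω| ^ r ∂P') ^ (1 / r) ≤ A * ‖x.1 - y.1‖ :=
      h5.trans (mul_le_mul_of_nonneg_right (le_max_left _ _) (norm_nonneg _))
    have h7 := Real.rpow_le_rpow (Real.rpow_nonneg hI0 _) h6 hr0.le
    rwa [← Real.rpow_mul hI0, one_div_mul_cancel hr0.ne', Real.rpow_one] at h7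
  obtain ⟨d, W, s, hs, hd, hW⟩ := hC X P' (fun x : X => F x.1) (fun x => hFm x.1)
    (fun x y => ‖x.1 - y.1‖) (fun x => by simp)
    (fun x y hxy => norm_pos_iff.2 (sub_ne_zero.2 fun h => hxy (Subtype.ext h))) A hA1 ε hε hε1
    hFp hFr
  refine ⟨d, ?_, fun x => if h : x ∈ X then W ⟨x, h⟩ else 0, s, hs, fun x hx y hy => ?_⟩
  · refine hd.trans ?_
    have hcard : Fintype.card X = X.card := Fintype.card_coe X
    rw [hcard]
    have h1 : (1 : ℝ) ≤ X.card := by exact_mod_cast h0.card_pos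
    have h2 : Real.log X.card ≤ Real.log n :=
      Real.log_le_log (by linarith) (by exact_mod_cast hX)
    have h3 := Real.log_nonneg h1
    have h4 : 1 ≤ (1 + Real.log n) / ε := by
      rw [le_div_iff₀ hε]
      linarith
    calc C * (A * (1 + Real.log X.card) / ε) ^ C ≤ C * (A * ((1 + Real.log n) / ε)) ^ C := by
          apply mul_le_mul_of_nonneg_left _ (by linarith)
          apply Real.rpow_le_rpow (by positivity) _ (by linarith)
          rw [mul_div_assoc]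
          gcongr
      _ = C * A ^ C * ((1 + Real.log n) / ε) ^ C := by
          rw [Real.mul_rpow (by linarith) (by linarith)]; ring
      _ ≤ C * A ^ C * ((1 + Real.log n) / ε) ^ (C * A ^ C) := by
          apply mul_le_mul_of_nonneg_left _ (by positivity)
          exact Real.rpow_le_rpow_of_exponent_le h4 hCC
  · simp only [dif_pos hx, dif_pos hy]
    exact hW ⟨x, hx⟩ ⟨y, hy⟩

end Vale.Agent.P249.H557
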